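import Vale.Agent.P027H.Wp
import Vale.Agent.P014G.Ax
import Vale.Agent.P014.Defs

/-!
# P014 T, the real place: shape of a real lattice and the real period
-/

open Complex Set MeasureTheory
open scoped ComplexConjugate

namespace Vale.Agent.P014T.Rp

open P014G P027H P014

theorem cubic {a b e : ℝ} {C : ℝ → ℝ} (hC : ∀ x, C x = 4 * x ^ 3 - a * x - b) (h0 : C e = 0)
    (hp : ∀ x, e < x → 0 < C x) (hD : a ^ 3 - 27 * b ^ 2 ≠ 0)
    (hi : IntegrableOn (fun x => 1 / √(C x)) (Ioi e)) :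
    ∫ x in {x | 0 < C x}, 1 / √(C x) =
      (if 0 < a ^ 3 - 27 * b ^ 2 then 2 else 1) * ∫ x in Ioi e, 1 / √(C x) ∧
    (0 < a ^ 3 - 27 * b ^ 2 → ∀ z : ℂ, 4 * z ^ 3 - a * z - b = 0 → conj z = z) ∧
    (¬ 0 < a ^ 3 - 27 * b ^ 2 → ∀ x, C x = 0 → x = e) := by
  obtain rfl : b = 4 * e ^ 3 - a * e := by linarith [hC e]
  have k : a ^ 3 - 27 * (4 * e ^ 3 - a * e) ^ 2 = (a - 3 * e ^ 2) * (12 * e ^ 2 - a) ^ 2 := by ring
  rw [k] at hD ⊢
  have k1 : 0 < (12 * e ^ 2 - a) ^ 2 := sq_pos_of_ne_zero fun h => hD (by simp [h])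
  have k2 : ∀ x, C x = (x - e) * ((2 * x + e) ^ 2 - (a - 3 * e ^ 2)) := fun x => by rw [hC]; ring
  simp only [mul_pos_iff_of_pos_right k1]
  split_ifs with h
  · obtain ⟨r, r0, hr⟩ : ∃ r : ℝ, 0 < r ∧ a = r ^ 2 + 3 * e ^ 2 :=
      ⟨√(a - 3 * e ^ 2), Real.sqrt_pos.2 h, by rw [Real.sq_sqrt h.le]; ring⟩
    obtain rfl : C = cub e ((-e + r) / 2) ((-e - r) / 2) := funext fun x => by
      rw [k2, cub, hr]; ring
    refine ⟨full_integral (by linarith) (lt_of_le_of_ne (not_lt.1 fun c => ?_) fun c => ?_) hi,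
      fun _ z hz => ?_, fun c => absurd h c⟩
    · simpa [cub] using hp _ c
    · rw [hr, show r = 3 * e by linarith] at k1
      nlinarith
    · have : (z - e) * (z - ((-e + r) / 2 : ℝ)) * (z - ((-e - r) / 2 : ℝ)) = 0 := by
        rw [hr] at hz
        push_cast at hz ⊢
        linear_combination hz / 4
      simp only [mul_eq_zero, sub_eq_zero] at this
      rcases this with (rfl | rfl) | rfl <;> exact conj_ofReal _
  · have k3 : ∀ x, 0 < (2 * x + e) ^ 2 - (a - 3 * e ^ 2) := fun x => by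
      have := lt_of_le_of_ne (not_lt.1 h) (left_ne_zero_of_mul hD)
      nlinarith [sq_nonneg (2 * x + e)]
    refine ⟨?_, fun c => absurd c h, fun _ x hx => ?_⟩
    · rw [one_mul, show {x | 0 < C x} = Ioi e from Set.ext fun x => by
        rw [mem_ofPred_eq, k2, mul_pos_iff_of_pos_right (k3 x), sub_pos, mem_Ioi]]
    · rw [k2, mul_eq_zero, or_iff_left (k3 x).ne', sub_eq_zero] at hx
      exact hx

/-- the shape of a lattice with real invariants, and the integral over all real components -/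
theorem shape {Λ : Submodule ℤ ℂ} (hΛ : IsLat Λ) {a b : ℝ} (h2 : g2 Λ = a) (h3 : g3 Λ = b) :
    ∃ w v : ℝ, 0 < w ∧ 0 < v ∧ (∀ z, z ∈ Λ ↔ ∃ m n : ℤ,
      z = m * w + n * ((if 0 < a ^ 3 - 27 * b ^ 2 then 0 else w / 2 : ℝ) + v * I)) ∧
    ∫ x in {x : ℝ | 0 < 4 * x ^ 3 - a * x - b}, 1 / √(4 * x ^ 3 - a * x - b) =
      (if 0 < a ^ 3 - 27 * b ^ 2 then 2 else 1) * (w / 2) := by
  have hD : a ^ 3 - 27 * b ^ 2 ≠ 0 := fun e => hΛ.disc_ne (by
    have := congrArg ofReal e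
    push_cast at this
    rw [h2, h3]
    linear_combination this / (-16))
  obtain ⟨L, hL'⟩ := id hΛ
  subst hL'
  rw [g2_lat] at h2
  rw [g3_lat] at h3
  have hL : IsReal L := ⟨by rw [h2, conj_ofReal], by rw [h3, conj_ofReal]⟩
  have d1 : Dir 1 1 := .inl ⟨rfl, rfl⟩
  have d2 : Dir I (-1) := .inr ⟨rfl, rfl⟩
  obtain ⟨w, gw⟩ := exists_gen hL d1
  obtain ⟨v, gv⟩ := exists_gen hL d2
  have br := gw.br hL d1
  obtain ⟨c1, c2, c3⟩ := cubic (a := a) (b := b) (fun x => by simp [cx, h2, h3]) (gw.root hL d1)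
    (fun x => br.C_pos) hD br.integrableOn
  rw [br.integral] at c1
  have w0 := gw.pos
  have v0 := gv.pos
  let p : ℝ → ℝ → ℂ := fun s t => s * w + t * v * I
  have a1 : ∀ s, p s 0 ∈ L.lattice ↔ ∃ m : ℤ, s = m := fun s => by
    simpa [p, w0.ne'] using gw.mem (s * w)
  have a2 : ∀ t, p 0 t ∈ L.lattice ↔ ∃ m : ℤ, t = m := fun t => by
    simpa [p, v0.ne', mul_comm I] using gv.mem (t * v)
  have a3 : ∀ s t, p s t ∈ L.lattice → (∃ m : ℤ, 2 * s = m) ∧ ∃ m : ℤ, 2 * t = m := fun s t h =>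
    ⟨(a1 _).1 (mem_of_eq (two_re_mem hL h) (by simp [p]; ring)),
      (a2 _).1 (mem_of_eq (two_im_mem hL h) (by simp [p]; ring))⟩
  have a4 : ∀ z, ∃ s t, z = p s t := fun z => ⟨z.re / w, z.im / v, by
    apply Complex.ext <;> simp [p, w0.ne', v0.ne']⟩
  have nh : ∀ m n : ℤ, (n + 1 / 2 : ℝ) ≠ m := fun m n e => by
    have : (2 * n + 1 : ℤ) = 2 * m := by exact_mod_cast (by linarith : (2 * n + 1 : ℝ) = 2 * m)
    omega
  have a5 : ∀ (s t : ℝ) (m n : ℤ), p (m + s) (n + t) ∈ L.lattice ↔ p s t ∈ L.lattice :=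
    fun s t m n => by
      rw [← add_mem_cancel_left (add_mem ((a1 m).2 ⟨m, rfl⟩) ((a2 n).2 ⟨n, rfl⟩)) (y := p s t)]
      exact iff_of_eq (congrArg _ (by simp [p]; ring))
  have n1 : p (1 / 2) 0 ∉ L.lattice := fun h => by
    obtain ⟨m, e⟩ := (a1 _).1 h
    exact nh m 0 (by simpa using e)
  have n2 : p 0 (1 / 2) ∉ L.lattice := fun h => by
    obtain ⟨m, e⟩ := (a2 _).1 h
    exact nh m 0 (by simpa using e)
  have a6 : ∀ z ∈ L.lattice, ∃ m n : ℤ, z = p m n ∨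
      z = p (m + 1 / 2) (n + 1 / 2) ∧ p (1 / 2) (1 / 2) ∈ L.lattice := fun z hz => by
    obtain ⟨s, t, rfl⟩ := a4 z
    obtain ⟨⟨m, e⟩, n, e'⟩ := a3 s t hz
    obtain ⟨m, rfl | rfl⟩ := m.even_or_odd' <;> obtain ⟨n, rfl | rfl⟩ := n.even_or_odd' <;>
      push_cast at e e'
    · exact ⟨m, n, .inl (by rw [show s = m by linarith, show t = n by linarith])⟩
    · rw [show s = m + 0 by linarith, show t = n + 1 / 2 by linarith, a5] at hz
      exact absurd hz n2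
    · rw [show s = m + 1 / 2 by linarith, show t = n + 0 by linarith, a5] at hz
      exact absurd hz n1
    · rw [show s = m + 1 / 2 by linarith, show t = n + 1 / 2 by linarith] at hz ⊢
      exact ⟨m, n, .inr ⟨rfl, (a5 _ _ _ _).1 hz⟩⟩
  have m1 : (w : ℂ) ∈ L.lattice := by simpa [p] using (a1 1).2 ⟨1, by simp⟩
  simp only [cx, h2, h3, ofReal_re, one_mul] at c1
  by_cases H : p (1 / 2) (1 / 2) ∈ L.lattice
  · have k : ¬ 0 < a ^ 3 - 27 * b ^ 2 := fun k => by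
      have q1 : ∀ t, p (1 / 4) t ∉ L.lattice := fun t h => by
        obtain ⟨m, e⟩ := (a3 _ _ h).1
        exact nh m 0 (by push_cast; linarith)
      have q2 := hΛ.ode (q1 (1 / 4))
      rw [(hΛ.dwp_eq_zero (q1 _)).2 (mem_of_eq H (by simp [p]; ring)), g2_lat, g3_lat, h2, h3] at q2
      refine hΛ.wp_ne (q1 (1 / 4)) (q1 (-1 / 4)) (fun h => n2 (mem_of_eq h (by simp [p]; ring)))
        (fun h => n1 (mem_of_eq h (by simp [p]; ring))) ?_
      rw [← c2 k (wp _ (p (1 / 4) (1 / 4))) (by linear_combination -q2), wp_lat, ← hL.wp_conj]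
      exact congrArg _ (by simp [p, map_ofNat]; ring)
    refine ⟨w, v / 2, w0, half_pos v0, fun z => ⟨fun hz => ?_, ?_⟩, c1⟩
    · rw [if_neg k]
      obtain ⟨m, n, rfl | ⟨rfl, -⟩⟩ := a6 z hz
      · exact ⟨m - n, 2 * n, by simp [p]; ring⟩
      · exact ⟨m - n, 2 * n + 1, by simp [p]; ring⟩
    · rintro ⟨m, n, rfl⟩
      exact add_mem (int_mul_mem m m1) (int_mul_mem n (mem_of_eq H (by simp [p, k]; ring)))
  · have k : 0 < a ^ 3 - 27 * b ^ 2 := by_contra fun k => by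
      have q := gv.root hL d2
      simp only [cx, h2, h3, ofReal_re] at q
      have q1 := c3 k (-sx L I (-1) (v / 2)) (by simp only [cx, h2, h3, ofReal_re]; linarith)
      refine hΛ.wp_ne n1 n2 (fun h => H ((a5 _ _ 0 (-1)).1 (mem_of_eq h (by simp [p]; ring))))
        (fun h => H (mem_of_eq h (by simp [p]))) ?_
      rw [wp_lat, show p (1 / 2) 0 = 1 * (w / 2 : ℝ) by simp [p]; ring,
        show p 0 (1 / 2) = I * (v / 2 : ℝ) by simp [p]; ring, wp_sx hL d1, wp_sx hL d2, ← q1]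
      simp
    refine ⟨w, v, w0, v0, fun z => ⟨fun hz => ?_, ?_⟩, c1⟩
    · obtain ⟨m, n, rfl | ⟨-, h⟩⟩ := a6 z hz
      · exact ⟨m, n, by simp [p, k, mul_assoc]⟩
      · exact absurd h H
    · rintro ⟨m, n, rfl⟩
      exact add_mem (int_mul_mem m m1) (int_mul_mem n
        (mem_of_eq ((a2 1).2 ⟨1, by simp⟩) (by simp [p, k])))

/-- **the real period**: `Λ` is `u⁻¹` times the lattice of the invariant differential of `E` -/
theorem rp (E : WeierstrassCurve ℚ) {Λ : Submodule ℤ ℂ} (hΛ : IsLat Λ) {u : ℝ} (hu : 0 < u)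
    (h2 : g2 Λ = u ^ 4 * E.c₄ / 12) (h3 : g3 Λ = u ^ 6 * E.c₆ / 216) :
    ∃ w v : ℝ, 0 < w ∧ 0 < v ∧ (∀ z, z ∈ Λ ↔ ∃ m n : ℤ,
      z = m * w + n * ((if 0 < E.Δ then 0 else w / 2 : ℝ) + v * I)) ∧
    realPeriod E = (if 0 < E.Δ then 2 else 1) * (u * w) := by
  obtain ⟨w, v, w0, v0, h, k⟩ := shape hΛ (a := u ^ 4 * E.c₄ / 12) (b := u ^ 6 * E.c₆ / 216)
    (by rw [h2]; push_cast; rfl) (by rw [h3]; push_cast; rfl)
  have e : (u ^ 4 * E.c₄ / 12) ^ 3 - 27 * (u ^ 6 * E.c₆ / 216) ^ 2 = u ^ 12 * E.Δ := by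
    have : (1728 * E.Δ : ℝ) = E.c₄ ^ 3 - E.c₆ ^ 2 := by exact_mod_cast E.c_relation
    linear_combination (-u ^ 12 / 1728) * this
  simp only [e, mul_pos_iff_of_pos_left (pow_pos hu 12), Rat.cast_pos] at h k
  refine ⟨w, v, w0, v0, h, ?_⟩
  rw [realPeriod, affine_integral
    (fun x => 4 * x ^ 3 - u ^ 4 * E.c₄ / 12 * x - u ^ 6 * E.c₆ / 216) (by fun_prop)
    (d := u⁻¹ ^ 2) (by positivity) (-(u ^ 2 * E.b₂ / 12)) (psi E) (fun s => by
      simp only [psi, WeierstrassCurve.c₄, WeierstrassCurve.c₆]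
      push_cast
      field_simp
      ring), k, Real.sqrt_sq (by positivity)]
  field_simp

/-- the same for the lattice of the short model `y² = x³ - 27 c₄ x - 54 c₆` -/
theorem rp6 (E : WeierstrassCurve ℚ) {Λ : Submodule ℤ ℂ} (hΛ : IsLat Λ) {A B : ℤ}
    (hA : (A : ℚ) = -27 * E.c₄) (hB : (B : ℚ) = -54 * E.c₆) (h2 : g2 Λ = -4 * A)
    (h3 : g3 Λ = -4 * B) :
    ∃ w v : ℝ, 0 < w ∧ 0 < v ∧ (∀ z, z ∈ Λ ↔ ∃ m n : ℤ,
      z = m * w + n * ((if 0 < E.Δ then 0 else w / 2 : ℝ) + v * I)) ∧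
    realPeriod E = (if 0 < E.Δ then 2 else 1) * (6 * w) := by
  have a : (A : ℂ) = -27 * E.c₄ := by exact_mod_cast hA
  have b : (B : ℂ) = -54 * E.c₆ := by exact_mod_cast hB
  exact rp E hΛ (by norm_num) (by rw [h2, a]; push_cast; ring) (by rw [h3, b]; push_cast; ring)

end Vale.Agent.P014T.Rp
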